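import Mathlib

set_option autoImplicit false

namespace Vale.Agent.Results.P084.InnerProduct


variable {X Y : Type*} [NormedAddCommGroup X] [InnerProductSpace ℝ X]
  [NormedAddCommGroup Y] [InnerProductSpace ℝ Y]

/-- the positively homogeneous extension of a map defined on the unit sphere -/
noncomputable def ext (f : X → Y) (x : X) : Y := ‖x‖ • f (‖x‖⁻¹ • x)

theorem inner_of_norms (u v : Y) (hu : ‖u‖ = 1) (hv : ‖v‖ = 1) :
    (inner ℝ (u) (v)) = (2 - ‖u - v‖ ^ 2) / 2 := by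
  have h := norm_sub_sq_real u v
  rw [hu, hv] at h
  linarith

theorem inner_sphere (f : X → Y) (h1 : ∀ x, ‖x‖ = 1 → ‖f x‖ = 1)
    (h2 : ∀ x y, ‖x‖ = 1 → ‖y‖ = 1 → ‖f x - f y‖ = ‖x - y‖)
    (u v : X) (hu : ‖u‖ = 1) (hv : ‖v‖ = 1) : (inner ℝ (f u) (f v)) = (inner ℝ (u) (v)) := by
  rw [inner_of_norms (f u) (f v) (h1 u hu) (h1 v hv), h2 u v hu hv]
  have h := norm_sub_sq_real u v
  rw [hu, hv] at h
  linarith

theorem inner_ext (f : X → Y) (h1 : ∀ x, ‖x‖ = 1 → ‖f x‖ = 1)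
    (h2 : ∀ x y, ‖x‖ = 1 → ‖y‖ = 1 → ‖f x - f y‖ = ‖x - y‖) (x y : X) :
    (inner ℝ (ext f x) (ext f y)) = (inner ℝ (x) (y)) := by
  by_cases hx : x = 0
  · simp [ext, hx]
  by_cases hy : y = 0
  · simp [ext, hy]
  have hx' : ‖x‖ ≠ 0 := norm_ne_zero_iff.mpr hx
  have hy' : ‖y‖ ≠ 0 := norm_ne_zero_iff.mpr hy
  have hu : ‖‖x‖⁻¹ • x‖ = 1 := by
    rw [norm_smul, norm_inv, norm_norm, inv_mul_cancel₀ hx']
  have hv : ‖‖y‖⁻¹ • y‖ = 1 := by
    rw [norm_smul, norm_inv, norm_norm, inv_mul_cancel₀ hy']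
  unfold ext
  rw [real_inner_smul_left, real_inner_smul_right, inner_sphere f h1 h2 _ _ hu hv,
    real_inner_smul_left, real_inner_smul_right]
  field_simp

theorem eq_of_inner {g : X → Y} (hg : ∀ x y, (inner ℝ (g x) (g y)) = (inner ℝ (x) (y))) (a b c : X) (r s : ℝ)
    (h : a = r • b + s • c) : g a = r • g b + s • g c := by
  have hz : (inner ℝ (g a - (r • g b + s • g c)) (g a - (r • g b + s • g c))) = 0 := by
    have hz' : (inner ℝ (a - (r • b + s • c)) (a - (r • b + s • c))) = 0 := by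
      rw [h]; simp
    simp only [inner_sub_left, inner_sub_right, inner_add_left, inner_add_right,
      real_inner_smul_left, real_inner_smul_right, hg] at hz' ⊢
    exact hz'
  have := inner_self_eq_zero.mp hz
  exact sub_eq_zero.mp this

/-- Tingley's problem has a positive answer for real inner product spaces: every surjective isometry
between the unit spheres is the restriction of a surjective linear isometry. -/
theorem result (f : X → Y) (h1 : ∀ x, ‖x‖ = 1 → ‖f x‖ = 1)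
    (h2 : ∀ x y, ‖x‖ = 1 → ‖y‖ = 1 → ‖f x - f y‖ = ‖x - y‖)
    (h3 : ∀ z : Y, ‖z‖ = 1 → ∃ x : X, ‖x‖ = 1 ∧ f x = z) :
    ∃ T : X ≃ₗᵢ[ℝ] Y, ∀ x, ‖x‖ = 1 → T x = f x := by
  have hg := inner_ext f h1 h2
  let L : X →ₗ[ℝ] Y :=
    { toFun := ext f
      map_add' := by
        intro x y
        have := eq_of_inner hg (x + y) x y 1 1 (by simp)
        simpa using this
      map_smul' := by
        intro r x
        have := eq_of_inner hg (r • x) x 0 r 0 (by simp)
        simpa using this }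
  have hnorm : ∀ x, ‖L x‖ = ‖x‖ := by
    intro x
    have h := hg x x
    rw [real_inner_self_eq_norm_sq, real_inner_self_eq_norm_sq] at h
    have h' : ‖ext f x‖ = ‖x‖ := by
      exact (sq_eq_sq₀ (norm_nonneg _) (norm_nonneg _)).mp h
    exact h'
  let LI : X →ₗᵢ[ℝ] Y := ⟨L, hnorm⟩
  have hsphere : ∀ x, ‖x‖ = 1 → LI x = f x := by
    intro x hx
    show ext f x = f x
    simp [ext, hx]
  have hsurj : Function.Surjective LI := by
    intro z
    by_cases hz : z = 0
    · exact ⟨0, by rw [hz]; exact map_zero LI⟩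
    · have hz' : ‖z‖ ≠ 0 := norm_ne_zero_iff.mpr hz
      have hu : ‖‖z‖⁻¹ • z‖ = 1 := by
        rw [norm_smul, norm_inv, norm_norm, inv_mul_cancel₀ hz']
      obtain ⟨x, hx, hfx⟩ := h3 _ hu
      refine ⟨‖z‖ • x, ?_⟩
      rw [map_smul, hsphere x hx, hfx, smul_smul, mul_inv_cancel₀ hz', one_smul]
  refine ⟨LinearIsometryEquiv.ofSurjective LI hsurj, ?_⟩
  intro x hx
  exact hsphere x hx

end Vale.Agent.Results.P084.InnerProduct
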